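import Vale.Agent.P011UF2.Mon
import Vale.Agent.P011UQ.Asm

/-!
The dictionary between the Levi subgroup of type `A₅` and the descent data.
-/

set_option autoImplicit false
set_option linter.all false

namespace Vale.Agent.P011UF2

open Matrix Vale.Agent.P011L Vale.Agent.P011LD Vale.Agent.P011LE Vale.Agent.P183CH
  Vale.Agent.P011U Vale.Agent.P011UP Vale.Agent.P011UQ Vale.Agent.P011UF2C

variable {k K : Type} [Field k] [Field K] [Algebra k K] {D : Chev} {e : Fin D.R.r ≃ Fin 6}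
  {φ : SA K 6 →* D.grp K} {o : (K ≃ₐ[k] K) →* ℤˣ} {σ : K ≃ₐ[k] K}

/-- the diagonal matrix of the coroot of the last node -/
def de (t : Kˣ) : GL (Fin 6) K := dG ![1, 1, 1, t, t, t]

theorem Fr.conj (F : Fr e φ) (he : Ty D.R CartanMatrix.E₆ e) (t : Kˣ) (x y : SA K 6)
    (h : (GG D K).h (e.symm 1) t * φ x = φ y * (GG D K).h (e.symm 1) t) :
    de t * x.1 = y.1 * de t := by
  let c : SA K 6 →* SA K 6 :=
    ((MulAut.conj (de t)).toMonoidHom.comp (SA K 6).subtype).codRestrict _ fun x => by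
      have : GeneralLinearGroup.det x.1 = 1 := x.2
      show GeneralLinearGroup.det (de t * x.1 * (de t)⁻¹) = 1
      rw [map_mul, map_mul, this, mul_one, map_inv, mul_inv_cancel]
  have hR := Chev.R_ok D
  have a : ∀ i, D.R.pr (D.R.α (io e i)) (e.symm 1) = ![0, 0, -1, 0, 0] i := fun i => by
    rw [RS.pr_α, he, e_io, e.apply_symm_apply]
    fin_cases i <;> rfl
  have e1 : φ.comp c = (MulAut.conj ((GG D K).h (e.symm 1) t)).toMonoidHom.comp φ := by
    refine F.ext (fun i u => ?_) fun i u => ?_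
    · show φ (c _) = _ * φ _ * _
      rw [F.xe, GG_ok.hx _ _ _ (hR.simple _), a, ← F.xe]
      refine congrArg φ (Subtype.ext (mul_inv_eq_of_eq_mul (Units.ext ((dG_x _ _ _ _).trans ?_))))
      fin_cases i <;> simp [P011UF2.xe, mkS_val, de]
    · show φ (c _) = _ * φ _ * _
      rw [F.xf, GG_ok.hx _ _ _ (hR.neg_mem (hR.simple _)), RS.pr_neg, a, ← F.xf]
      refine congrArg φ (Subtype.ext (mul_inv_eq_of_eq_mul (Units.ext ((dG_x _ _ _ _).trans ?_))))
      fin_cases i <;> simp [P011UF2.xf, mkS_val, de]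
  have e2 : c x = y := F.inj ((DFunLike.congr_fun e1 x).trans (mul_inv_eq_of_eq_mul h))
  exact mul_inv_eq_iff_eq_mul.1 (congrArg Subtype.val e2)

theorem de_mon (C : Fin 6 → Kˣ) {t : Kˣ} (ht : um σ t = t) :
    (de t * mon o σ C).1 = (if o σ = 1 then 1 else (t : K)) • (mon o σ C * st o σ (de t)).1 := by
  rw [mon, de, st_dG]
  by_cases h : o σ = 1
  · simp only [if_pos h, mul_one, one_smul, ← map_mul]
    congr 2
    funext a
    fin_cases a <;> simp [ht, mul_comm]
  · simp only [if_neg h]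
    rw [mul_assoc, ww_dG, ← mul_assoc, ← mul_assoc, ← map_mul, ← map_mul, ← dG_const]
    congr 3
    funext a
    fin_cases a <;> simp [ht, mul_comm, Fin.rev]

theorem exists_o (he : Ty D.R CartanMatrix.E₆ e) (p : (K ≃ₐ[k] K) →* Equiv.Perm (Fin D.R.r))
    (h : ∀ σ, Dg D.R (p σ)) : ∃ o : (K ≃ₐ[k] K) →* ℤˣ, (∀ σ, o σ = 1 ↔ p σ = 1) ∧
      ∀ σ a, p σ (e.symm (if o σ = 1 then a else fl a)) = e.symm a := by
  have f : ∀ a, fl (fl a) = a := by decide
  refine ⟨MonoidHom.mk' (fun σ => if p σ = 1 then 1 else -1) fun σ τ => ?_, fun σ => ?_,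
    fun σ a => ?_⟩
  · rw [map_mul]
    by_cases a : p σ = 1
    · simp [a]
    by_cases b : p τ = 1
    · simp [b]
    rw [if_neg a, if_neg b, if_pos (Equiv.ext fun i => e.injective (by
      rw [Equiv.Perm.mul_apply, (dg6 he (h σ)).resolve_left a, (dg6 he (h τ)).resolve_left b, f]
      rfl))]
    rfl
  · by_cases a : p σ = 1 <;> simp [a]
  · by_cases b : p σ = 1
    · simp [b]
    · simp only [MonoidHom.mk'_apply, if_neg b, if_neg (show (-1 : ℤˣ) ≠ 1 by decide)]
      exact e.injective (by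
        rw [(dg6 he (h σ)).resolve_left b, e.apply_symm_apply, e.apply_symm_apply, f])

theorem dct (tlj : TLJ) (lft : LFT) : DCT := by
  rintro k K _ _ _ _ _ D hD T e he ⟨g, c, π, nf, hg⟩ nl
  haveI : Infinite K := .of_injective _ (algebraMap k K).injective
  haveI : IsGalois k K := IsSepClosure.isGalois
  have hR := Chev.R_ok D
  obtain ⟨φ, F, ex⟩ := exists_fr hD he K
  have hS : ∀ σ, ∀ x ∈ LJ (GG D K) (J0 e), T.a σ x ∈ LJ (GG D K) (J0 e) := fun σ x hx =>
    P011UB.mem_eq (mul_mem (mul_mem (hg σ).1 (std_X GG_ok (nf.1 σ) hR (fun γ a _ => pm_In (hg σ).2 a) hx))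
      (inv_mem (hg σ).1)) (by group)
  obtain ⟨T', hT⟩ := ex k T hS
  obtain ⟨p, z, p1, cz, z1, z2, oc⟩ := nf_co hD nf
  obtain rfl : ⇑p = π := funext p1
  choose G hG using fun σ => F.surj (hg σ).1
  obtain ⟨o, o1, o2⟩ := exists_o he p fun σ => (nf.1 σ).1
  have tl : ∀ s, GG_ok.hT s ∈ LJ (GG D K) (J0 e) → s (e.symm 1) = 1 := fun s hs =>
    of_TJ hD (tlj D hD K _ _ (GG_ok.hT_mem s) hs) fun a => a (e.apply_symm_apply 1)
  let C : _ → Fin 6 → Kˣ := fun σ a => c σ (e.symm (if o σ = 1 then a else fl a))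
  let M : _ → GL (Fin 6) K := fun σ => (G σ).1 * mon o σ (C σ)
  have rp : Rp o T' M := fun σ x => by
    have a : ∀ i : Fin 5, p σ (io e i) = io e (if o σ = 1 then i else i.rev) ∧
        C σ (![0, 2, 3, 4, 5] (if o σ = 1 then i else i.rev)) = c σ (io e i) := fun i => by
      have b : (if o σ = 1 then ![0, 2, 3, 4, 5] (if o σ = 1 then i else i.rev)
          else fl (![0, 2, 3, 4, 5] (if o σ = 1 then i else i.rev))) = ![0, 2, 3, 4, 5] i := by
        split_ifs
        · rfl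
        · revert i
          decide
      exact ⟨(congrArg (fun a => p σ (e.symm a)) b.symm).trans (o2 σ _),
        congrArg (fun a => c σ (e.symm a)) b⟩
    have b : ∀ x y : SA K 6, T.a σ (φ x) = g σ * φ y * (g σ)⁻¹ →
        mon o σ (C σ) * st o σ x.1 = y.1 * mon o σ (C σ) →
        (M σ)⁻¹ * (T'.a σ x).1 * (M σ)⁻¹⁻¹ = st o σ x.1 := fun x y h1 h2 => by
      rw [show T'.a σ x = G σ * y * (G σ)⁻¹ from F.inj (by
        rw [← hT, h1, map_mul, map_mul, map_inv, hG]), ← inv_mul_cancel_left (mon o σ (C σ))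
        (st o σ x.1), h2]
      simp only [M, Subgroup.coe_mul, Subgroup.coe_inv]
      group
    have := DFunLike.congr_fun (F.ext (f := (MulAut.conj (M σ)⁻¹).toMonoidHom.comp
      ((SA K 6).subtype.comp (T'.a σ).toMonoidHom)) (f' := (st o σ).comp (SA K 6).subtype)
      (fun i u => b _ _ (by rw [F.xe, F.xe, (a i).2, ← (a i).1, ((nf.1 σ).2 _ _).1])
        (mon_x _ i u).1)
      fun i u => b _ _ (by
        rw [F.xf, F.xf, (a i).2, ← (a i).1, ((nf.1 σ).2 _ _).2, Units.val_inv_eq_inv_val])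
        (mon_x _ i u).2) x
    rw [← show _ = st o σ x.1 from this]
    simp [mul_assoc]
  have mul : ∀ σ τ, ∃ y : K, (M σ * st o σ (M τ)).1 = y • (M (σ * τ)).1 ∧
      y ^ 3 * kap (C σ) * σ (kap (C τ) * if o σ = 1 then 1 else (M τ).1.det) =
        (if o σ = 1 ∨ o τ = 1 then 1 else -1) * kap (C (σ * τ)) ∧
      (o σ = 1 → o τ = 1 → y = z σ τ (e.symm 0)) := fun σ τ => by
    have a0 := tl _ (P011UB.mem_eq
      (mul_mem (mul_mem (inv_mem (hg _).1) (hS σ _ (hg τ).1)) (hg σ).1) (z1 σ τ))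
    obtain ⟨y, y1, y2, y3⟩ := mon_mul (o := o) (σ := σ) (τ := τ) (Z := fun a => z σ τ (e.symm a))
      (C₁ := C σ) (C₂ := C τ) (C₃ := C (σ * τ)) a0 fun a => by
        have b1 := o2 (σ * τ) a
        have b2 : p τ _ = _ := (p σ).injective
          ((DFunLike.congr_fun (map_mul p σ τ) _).symm.trans (b1.trans (o2 σ a).symm))
        have b3 := (p τ).injective (b2.trans (o2 τ _).symm)
        refine (z2 σ τ _).trans ?_
        rw [b1, b2, RG.chi0_apply, ← e.symm.prod_comp]
        have b4 : ∀ x, D.R.pr (D.R.α (e.symm a)) (e.symm x) = CartanMatrix.E₆ a x := fun x => by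
          rw [RS.pr_α, he, e.apply_symm_apply, e.apply_symm_apply]
        simp only [b4]
        rw [b3]
    have a1 : G (σ * τ) * dT (fun a => z σ τ (e.symm a)) = T'.a σ (G τ) * G σ := F.inj (by
      rw [map_mul, map_mul, F.hT_eq _ a0, ← z1, ← hT, hG, hG, hG, tz]
      group)
    refine ⟨y, ?_, ?_, y3⟩
    · have a2 : M σ * st o σ (M τ) = (G (σ * τ)).1 * ((dT fun a => z σ τ (e.symm a)).1 *
          (mon o σ (C σ) * st o σ (mon o τ (C τ)))) := by
        rw [← mul_assoc (G _).1, ← Subgroup.coe_mul, a1, show M τ = _ * _ from rfl, map_mul,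
          ← mul_assoc, ← rp σ]
        simp only [M, Subgroup.coe_mul, mul_assoc]
      rw [a2, Units.val_mul, y1, Matrix.mul_smul]
      rfl
    · rwa [show M τ = _ * _ from rfl, Units.val_mul, det_mul, sa_det, one_mul]
  have op : Op ⊤ fun σ => o σ = 1 ∧ M σ = 1 ∧ kap (C σ) = 1 :=
    (cz.op.and (oc.and (near_op nf.2.2))).imp fun τ _ a => by
      have a1 := (o1 τ).2 a.1.1
      have a2 : G τ = 1 := F.inj (by simpa [nf.2.1, hG] using (a.2.2 1).1)
      have a3 : C τ = 1 := funext fun b => congrFun a.2.1 _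
      have a4 : gam (1 : Fin 6 → Kˣ) = 1 := funext fun b => by fin_cases b <;> simp [gam]
      exact ⟨a1, by simp [M, mon, a1, a2, a3, a4], by simp [a3, kap]⟩
  refine ⟨φ, T', o, M, fun σ => kap (C σ), F.inj, F.rng, hT,
    ⟨fun σ τ => (mul σ τ).imp fun y a => ⟨a.1, a.2.1⟩, fun σ => by simp [kap], op⟩, rp,
    fun ⟨v, v0, hv⟩ => nl ?_, F.lam_eq, fun x hx hx' => ?_⟩
  · choose! μ hμ using hv
    have m0 : ∀ σ, o σ = 1 → μ σ ≠ 0 := fun σ a b => v0 (funext fun i => σ.injective (by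
      have := hμ σ a
      rw [b, zero_smul] at this
      simpa using congrFun (eq_zero_of_mulVec_eq_zero (det_ne _) this) i))
    have q : ∀ σ, p σ (e.symm 0) = e.symm 0 → o σ = 1 := fun σ a => by_contra fun b => by
      have := o2 σ 0
      rw [if_neg b, ← a] at this
      exact absurd (e.symm.injective ((p σ).injective this)) (by decide)
    refine lft k K D hD T e he g c p nf z z1 (e.symm 0) (by simp) (by simp)
      (fun σ => if a : o σ = 1 then (Units.mk0 _ (m0 σ a))⁻¹ else 1)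
      ((op.and (Op.vec ⊤ v)).imp fun τ _ a => ?_) fun σ τ a b => ?_
    · have := hμ τ a.1.1
      rw [a.1.2.1, a.2, Units.val_one, one_mulVec] at this
      rw [dif_pos a.1.1, inv_eq_one]
      exact Units.ext (smul_left_injective K v0 (this.symm.trans (one_smul K v).symm))
    · have a1 := q σ a
      have a2 := q τ b
      obtain ⟨y, y1, -, y3⟩ := mul σ τ
      have a3 := congrArg (· *ᵥ (⇑(σ * τ) ∘ v)) y1
      have a4 : (M τ).1.map σ *ᵥ (⇑(σ * τ) ∘ v) = σ (μ τ) • σ ∘ v := funext fun i =>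
        (RingHom.map_mulVec (σ : K →+* K) (M τ).1 (τ ∘ v) i).symm.trans (by
          rw [hμ τ a2]
          exact map_mul σ _ _)
      simp only [Units.val_mul, st_in a1, ← mulVec_mulVec, a4, mulVec_smul, smul_mulVec,
        hμ σ a1, hμ _ (o_ii a1 a2), smul_smul, y3 a1 a2] at a3
      have a5 := smul_left_injective K v0 a3
      have := m0 σ a1
      have := m0 _ (o_ii a1 a2)
      have : σ (μ τ) ≠ 0 := (_root_.map_ne_zero σ).2 (m0 τ a2)
      simp only [dif_pos a1, dif_pos a2, dif_pos (o_ii a1 a2)]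
      refine Units.ext ?_
      simp
      field_simp
      exact a5.symm.trans (mul_comm _ _)
  · obtain ⟨l, hl, _, ht, rfl⟩ := GJ_split GG_ok hx'
    obtain ⟨s, rfl⟩ := GG_ok.exists_hT ht
    have nm : ∀ t, ∀ y ∈ LJ (GG D K) (J0 e), ((GG D K).h (e.symm 1) t)⁻¹ * y *
        (GG D K).h (e.symm 1) t ∈ LJ (GG D K) (J0 e) := fun t y hy => by
      have := GG_ok.nm_T_X _ _ (inv_mem (RG.h_mem (e.symm 1) t)) y hy
      rwa [inv_inv] at this
    have a1 : ((GG D K).h (e.symm 1) (s (e.symm 1)))⁻¹ * (l * GG_ok.hT s) ∈ LJ (GG D K) (J0 e) := by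
      have := F.mem (dT fun a =>
        ((Pi.mulSingle (e.symm 1) (s (e.symm 1)))⁻¹ * s : Fin D.R.r → Kˣ) (e.symm a))
      rw [F.hT_eq _ (by simp), map_mul, map_inv, GG_ok.hT_single] at this
      exact P011UB.mem_eq (mul_mem (nm (s (e.symm 1)) l hl) this) (by group)
    generalize l * GG_ok.hT s = x at hx a1
    generalize s (e.symm 1) = t at a1
    obtain ⟨y, hy⟩ := F.surj a1
    obtain rfl : x = (GG D K).h (e.symm 1) t * φ y := by rw [hy, mul_inv_cancel_left]
    have a2 : ∀ σ, (GG D K).h (e.symm 1) t * φ y =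
        g σ * (GG D K).h (e.symm 1) (um σ t) * (g σ)⁻¹ * φ (T'.a σ y) := fun σ => by
      rw [← hx σ, map_mul, hT, P011UP.std_h GG_ok (nf.1 σ), dg_two he (nf.1 σ).1]
      rfl
    have a3 : ∀ σ, um σ t = t := fun σ => by
      have := tl (Pi.mulSingle (e.symm 1) ((um σ t)⁻¹ * t)) (by
        rw [GG_ok.hT_single, map_mul, map_inv, eq_mul_inv_of_mul_eq (a2 σ)]
        exact P011UB.mem_eq (mul_mem (nm (um σ t) _ (hg σ).1) (mul_mem (inv_mem (hg σ).1)
          (mul_mem (F.mem (T'.a σ y)) (inv_mem (F.mem y))))) (by group))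
      rwa [Pi.mulSingle_eq_same, inv_mul_eq_one] at this
    obtain ⟨t0, h0⟩ := fixed_top (k := k) fun σ => congrArg Units.val (a3 σ)
    have a4 : ∀ σ, (de t * y.1 * M σ).1 =
        (if o σ = 1 then 1 else (t : K)) • (M σ * st o σ (de t * y.1)).1 := fun σ => by
      have b := F.conj he t (y * (T'.a σ y)⁻¹ * G σ) (G σ) (by
        rw [map_mul, map_mul, map_inv, ← mul_assoc, ← mul_assoc, a2 σ, a3, hG]
        group)
      have b1 : de t * y.1 * M σ = (G σ).1 * (de t * mon o σ (C σ)) * st o σ y.1 := by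
        rw [← mul_assoc (G σ).1, ← b, ← inv_mul_cancel_left (M σ) (st o σ y.1), ← rp σ]
        simp only [M, Subgroup.coe_mul, Subgroup.coe_inv]
        group
      rw [b1, Units.val_mul, Units.val_mul, de_mon _ (a3 σ), map_mul]
      simp only [M, Units.val_mul, Matrix.mul_smul, Matrix.smul_mul, Matrix.mul_assoc]
    refine ⟨Units.mk0 t0 fun b => t.ne_zero (by rw [← h0, b, map_zero]), de t * y.1,
      ⟨fun σ b => ?_, fun σ b => ?_⟩, ?_⟩
    · have := a4 σ
      rwa [if_pos b, one_smul, Units.val_mul, Units.val_mul (M σ), st_in b] at this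
    · have := a4 σ
      rw [if_neg b] at this
      rw [← st_out' b, ← Units.val_mul, this, Matrix.smul_mul, ← Units.val_mul,
        mul_inv_cancel_right]
      exact congrArg (· • _) h0.symm
    · exact (Units.ext h0.symm : t = Units.map (algebraMap k K).toMonoidHom (Units.mk0 t0 _)) ▸ a1

end Vale.Agent.P011UF2
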