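import Vale.Agent.P011U.Top
import Vale.Agent.P011LE.Defs
import Vale.Agent.P011UTS.Main
import Vale.Agent.P011UQ.Tz

/-!
Isotropic forms of `E₆` with nontrivial Tits algebras: the statements of the steps.
-/

set_option autoImplicit false
set_option linter.all false

namespace Vale.Agent.P011UF2

open Matrix Vale.Agent.P011L Vale.Agent.P011LD Vale.Agent.P011LE Vale.Agent.P183CH
  Vale.Agent.P011U Vale.Agent.P011UP Vale.Agent.P011UTS Vale.Agent.P011UQ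

section

variable {k K : Type} [Field k] [Field K] [Algebra k K] {n : Type} [Fintype n] [DecidableEq n]
  (o : (K ≃ₐ[k] K) →* ℤˣ)

/-- Projective descent data whose scalar cocycle is killed by three. -/
structure MD (M : (K ≃ₐ[k] K) → GL n K) (κ : (K ≃ₐ[k] K) → K) : Prop where
  mul : ∀ σ τ, ∃ z : K, (M σ * st o σ (M τ)).1 = z • (M (σ * τ)).1 ∧
    z ^ 3 * κ σ * σ (κ τ * if o σ = 1 then 1 else (M τ).1.det) =
      (if o σ = 1 ∨ o τ = 1 then 1 else -1) * κ (σ * τ)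
  ne : ∀ σ, κ σ ≠ 0
  cont : Op ⊤ fun σ => o σ = 1 ∧ M σ = 1 ∧ κ σ = 1

/-- The same for block diagonal matrices. -/
structure BD (d d' : (K ≃ₐ[k] K) → GL (Fin 3) K) (κ : (K ≃ₐ[k] K) → K) : Prop where
  mul : ∀ σ τ, ∃ z : K, (d σ * st o σ (d τ)).1 = z • (d (σ * τ)).1 ∧
    (d' σ * st o σ (d' τ)).1 = z • (d' (σ * τ)).1 ∧
    z ^ 3 * κ σ * σ (κ τ * if o σ = 1 then 1 else (d τ).1.det * (d' τ).1.det) =
      (if o σ = 1 ∨ o τ = 1 then 1 else -1) * κ (σ * τ)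
  ne : ∀ σ, κ σ ≠ 0
  cont : Op ⊤ fun σ => o σ = 1 ∧ d σ = 1 ∧ d' σ = 1 ∧ κ σ = 1

/-- The action on the idempotents. -/
def ac (M : (K ≃ₐ[k] K) → GL n K) (σ : K ≃ₐ[k] K) (E : Matrix n n K) : Matrix n n K :=
  if o σ = 1 then (M σ).1 * E.map σ * (M σ)⁻¹.1 else 1 - (M σ).1 * (E.map σ)ᵀ * (M σ)⁻¹.1

/-- `E` is an idempotent of rank three which is fixed by the kernel of `ε` and exchanged with its
complement by the other elements. -/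
def Id3 (M : (K ≃ₐ[k] K) → GL n K) (ε : (K ≃ₐ[k] K) →* ℤˣ) (E : Matrix n n K) : Prop :=
  E * E = E ∧ E.rank = 3 ∧ ∀ σ, ac o M σ E = if ε σ = 1 then E else 1 - E

/-- `X` is a rational similitude with multiplier `t`. -/
def Sm (M : (K ≃ₐ[k] K) → GL n K) (t : K) (X : GL n K) : Prop :=
  InB o M X.1 ∧ ∀ s, o s ≠ 1 → X.1 * (M s).1 * (X.1.map s)ᵀ = t • (M s).1

/-- The two elements are fixed by the kernel of `ε` and exchanged by the other elements. -/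
def Sw (ε : (K ≃ₐ[k] K) →* ℤˣ) (a b : K) : Prop :=
  ∀ σ, (ε σ = 1 → σ a = a ∧ σ b = b) ∧ (ε σ ≠ 1 → σ a = b ∧ σ b = a)

/-- The twisted action on the special linear group is given by the descent data. -/
def Rp {m : ℕ} (T : Tw k (SA K m)) (M : (K ≃ₐ[k] K) → GL (Fin m) K) : Prop :=
  ∀ σ g, (T.a σ g).1 * M σ = M σ * st o σ g.1

/-- The columns of `P` span a Lagrangian subspace which is defined over the kernel of `ε`. -/
def Lg (M : (K ≃ₐ[k] K) → GL n K) (ε : (K ≃ₐ[k] K) →* ℤˣ) (P : Matrix n (Fin 3) K) : Prop :=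
  P.rank = 3 ∧ ∀ σ, ε σ = 1 → (o σ = 1 → ∃ a, (M σ).1 * P.map σ = P * a) ∧
    (o σ ≠ 1 → (P.map σ)ᵀ * (M σ)⁻¹.1 * P = 0)

end

/-- Quantifier over the descent data of degree six. -/
def AllM (P : ∀ (k K : Type) [Field k] [Field K] [Algebra k K] (n : Type) [Fintype n]
    [DecidableEq n], ((K ≃ₐ[k] K) →* ℤˣ) → ((K ≃ₐ[k] K) → GL n K) → Prop) : Prop :=
  ∀ (k K : Type) [Field k] [Infinite k] [Field K] [Algebra k K] [IsSepClosure k K] (n : Type)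
    [Fintype n] [DecidableEq n], Fintype.card n = 6 → ∀ o M κ, MD o M κ → P k K n o M

/-- The index divides three. -/
def IDX : Prop := AllM fun _ K _ _ _ n _ _ o M =>
  ∃ E : Matrix n n K, InB o M E ∧ E * E = E ∧ E.rank = 3

/-- The stable subspaces. -/
def RK : Prop := AllM fun _ K _ _ _ n _ _ o M => ¬Spl o M → ∀ U : Submodule K (n → K),
  (∀ σ, o σ = 1 → ∀ v ∈ U, (M σ).1 *ᵥ (σ ∘ v) ∈ U) → U = ⊥ ∨ U = ⊤ ∨ Module.finrank K U = 3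

/-- From a Lagrangian subspace to an idempotent. -/
def LAG : Prop := AllM fun _ _ _ _ _ _ _ _ o M => ¬Spl o M → ∀ ε P, Op ⊤ (ε · = 1) →
  (∃ s, ε s = 1 ∧ o s ≠ 1) → Lg o M ε P → ∃ E, Id3 o M 1 E ∨ Id3 o M ε E

/-- There is an isotropic or a symmetric idempotent. -/
def SYM : Prop := AllM fun _ _ _ _ _ _ _ _ o M => ¬Spl o M → (∃ s, o s ≠ 1) →
  ∃ E, Id3 o M 1 E ∨ Id3 o M o E

/-- The block form. -/
def BLK : Prop := AllM fun k K _ _ _ n _ _ o M => ∀ E, Id3 o M o E →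
  ∃ (Y : Matrix n (Fin 3 ⊕ Fin 3) K) (Y' : Matrix (Fin 3 ⊕ Fin 3) n K)
    (d d' : (K ≃ₐ[k] K) → GL (Fin 3) K) (κ : (K ≃ₐ[k] K) → K), Y * Y' = 1 ∧ Y' * Y = 1 ∧
    BD o d d' κ ∧ ∀ σ, (M σ).1 * (if o σ = 1 then Y.map σ else (Y'.map σ)ᵀ) =
      Y * fromBlocks (d σ).1 0 0 (d' σ).1

/-- Quantifier over the block data. -/
def AllB (P : ∀ (k K : Type) [Field k] [Field K] [Algebra k K], ((K ≃ₐ[k] K) →* ℤˣ) →
    ((K ≃ₐ[k] K) → GL (Fin 3) K) → ((K ≃ₐ[k] K) → GL (Fin 3) K) → Prop) : Prop :=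
  ∀ (k K : Type) [Field k] [Infinite k] [Field K] [Algebra k K] [IsSepClosure k K],
    ∀ o d d' κ, BD o d d' κ → (∃ s, o s ≠ 1) → P k K o d d'

/-- The data of the comparison of the two blocks. -/
def Xu {k K : Type} [Field k] [Field K] [Algebra k K] (o : (K ≃ₐ[k] K) →* ℤˣ)
    (d d' : (K ≃ₐ[k] K) → GL (Fin 3) K) (x : GL (Fin 3) K) (u : Matrix (Fin 3) (Fin 3) K) : Prop :=
  (∀ σ, o σ = 1 → (d' σ).1 * x.1.map σ = x.1 * (d σ).1) ∧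
    (∀ s, o s ≠ 1 → u * (d' s).1 = -(x.1 * (d s).1 * (x.1.map s)ᵀ)) ∧ SymB o d' u ∧
    ∃ z : K, z ≠ 0 ∧ (∀ σ, o σ = 1 → σ z = z) ∧ ∀ s, o s ≠ 1 → u.det = z * s z

/-- The discriminant is a norm. -/
def DSC : Prop := AllB fun _ _ _ _ _ o d d' => ∃ x u, Xu o d d' x u

/-- The theorem of Landherr in degree three over function fields. -/
def LFF : Prop := AllB fun k K _ _ _ o d d' => Glob k → ¬NumberField k → ¬Spl o d' →
  ∀ x u, Xu o d d' x u → ∃ t : GL (Fin 3) K, InB o d' t.1 ∧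
    ∀ s, o s ≠ 1 → u * (d' s).1 = t.1 * (d' s).1 * (t.1.map s)ᵀ

/-- The theorem of Landherr over the field of a square root of `-t`. -/
def LNF : Prop := AllB fun k K _ _ _ o d d' => NumberField k → ∀ x u, Xu o d d' x u →
  ∀ δ : K, δ ≠ 0 → (∀ σ : K ≃ₐ[k] K, σ (δ ^ 2) = δ ^ 2) → (∃ s, s δ = δ ∧ o s ≠ 1) →
  (∀ s, o s ≠ 1 → ∃ X : GL (Fin 3 ⊕ Fin 3) K, X.1 * fromBlocks (d s).1 0 0 (d' s).1 *
    (X.1.map s)ᵀ = (-δ ^ 2) • fromBlocks (d s).1 0 0 (d' s).1) →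
  ∃ t : GL (Fin 3) K, ∀ σ, σ δ = δ → (o σ = 1 → t.1 * (d' σ).1 = (d' σ).1 * t.1.map σ) ∧
    (o σ ≠ 1 → u * (d' σ).1 = t.1 * (d' σ).1 * (t.1.map σ)ᵀ)

/-- The arithmetic step. -/
def ARI : Prop := AllM fun k K _ _ _ _ _ _ o M => Glob k → ¬Spl o M → ∀ (t : k) X,
  t ≠ 0 → Sm o M (algebraMap k K t) X → ∃ ε E a b, Id3 o M ε E ∧ Sw ε a b ∧
    a * b = algebraMap k K t ∧ (t ≠ 1 → a ≠ b)

/-- The group of type `A₅`. -/
def PSH : Prop := ∀ (k K : Type) [Field k] [Field K] [Algebra k K] [IsSepClosure k K], Glob k →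
  ∀ (T : Tw k (SA K 6)) o M κ, MD o M κ → Rp o T M → PSimple T.fix

/-- The nodes of the subsystem of type `A₅`. -/
def J0 {r : ℕ} (e : Fin r ≃ Fin 6) : Set (Fin r) := {j | e j ≠ 1}

/-- The cocharacter `diag (t, t, t, t⁻¹, t⁻¹, t⁻¹)` of the subgroup of type `A₅`. -/
def lam {r : ℕ} (e : Fin r ≃ Fin 6) (j : Fin r) : ℤ := ![1, 0, 2, 3, 2, 1] (e j)

/-- The maximal torus of the derived group of a Levi subgroup. -/
def TLJ : Prop := ∀ (D : Chev), SC D → ∀ (K : Type) [Field K] [Infinite K]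
  (J : Set (Fin D.R.r)), ∀ t ∈ (GG D K).T, t ∈ LJ (GG D K) J → t ∈ TJ (GG D K) J

/-- The Tits classes of `E₆`. -/
def LFT : Prop := AllI fun k K _ _ _ D T => ∀ e, Ty D.R CartanMatrix.E₆ e → ∀ g c π, NF T g c π →
  ∀ z : _ → _ → Fin D.R.r → Kˣ, (∀ σ τ, tz T g σ τ = GG_ok.hT (z σ τ)) → ∀ j, e j ≠ 1 → e j ≠ 3 →
  ∀ b : (K ≃ₐ[k] K) → Kˣ, (Op ⊤ fun τ => b τ = 1) →
    (∀ σ τ, π σ j = j → π τ j = j → z σ τ j * (b σ * um σ (b τ)) = b (σ * τ)) → Lift T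

/-- The parabolic subgroup of type `A₅` is rational. -/
def P0 : Prop := AllI fun k K _ _ _ D T => ∀ e, Ty D.R CartanMatrix.E₆ e → ¬Lift T → ¬T.Ani →
  ∃ T' : Tw k (D.grp K), Eqv T T' ∧ ¬Lift T' ∧ Par T' (J0 e)

/-- The stable subgroup of type `A₂`. -/
def A2T : Prop := AllG fun k K _ _ _ D T => ∀ e, Ty D.R CartanMatrix.E₆ e → Par T (J0 e) →
  ∀ N : Subgroup T.fix, N.Normal → (∀ g : T.fix, g.1 ∈ UP (GG D K) (J0 e) → g ∈ N) →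
  ∀ y ∈ LJ (GG D K) (J0 e), ∀ ε : (K ≃ₐ[k] K) →* ℤˣ,
    (∀ σ t, T.a σ (y * co GG_ok (lam e) t * y⁻¹) =
      y * co GG_ok (lam e) (um σ t) ^ (ε σ : ℤ) * y⁻¹) →
    ∀ a b : Kˣ, Sw ε (a : K) b → ∃ g ∈ N,
      g.1 = y * ((GG D K).h (e.symm 1) (a * b) * co GG_ok (lam e) a) * y⁻¹

/-- The dictionary. -/
def DCT : Prop := AllI fun k K _ _ _ D T => ∀ e, Ty D.R CartanMatrix.E₆ e → Par T (J0 e) →
  ¬Lift T → ∃ (φ : SA K 6 →* D.grp K) (T' : Tw k (SA K 6)) (o : _) (M : _) (κ : _),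
    Function.Injective φ ∧ φ.range = LJ (GG D K) (J0 e) ∧ (∀ σ x, T.a σ (φ x) = φ (T'.a σ x)) ∧
    MD o M κ ∧ Rp o T' M ∧ ¬Spl o M ∧
    (∀ (x : SA K 6) (t : Kˣ), x.1.1 = diagonal ![(t : K), t, t, t⁻¹, t⁻¹, t⁻¹] →
      φ x = co GG_ok (lam e) t) ∧
    ∀ g ∈ T.fix, g ∈ (GG D K).GJ (J0 e) → ∃ (t : kˣ) (X : GL (Fin 6) K),
      Sm o M (algebraMap k K t) X ∧ ((GG D K).h (e.symm 1)
        (Units.map (algebraMap k K).toMonoidHom t))⁻¹ * g ∈ LJ (GG D K) (J0 e)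

end Vale.Agent.P011UF2
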