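import Vale.Agent.P011UF2.Defs
import Vale.Agent.P011UD.Aut
import Vale.Agent.P011UG.Orb
import Vale.Agent.P011UF.An

/-!
The subgroup of type `A₅` of `E₆`.
-/

set_option autoImplicit false
set_option linter.all false

namespace Vale.Agent.P011UF2

open Matrix Vale.Agent.P011L Vale.Agent.P183CH Vale.Agent.P011U Vale.Agent.P011UP
  Vale.Agent.P011UTS Vale.Agent.P011UD

/-- the diagram automorphism -/
def fl : Equiv.Perm (Fin 6) := ⟨![5, 1, 4, 3, 2, 0], ![5, 1, 4, 3, 2, 0], by decide, by decide⟩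

theorem au6 {p : Equiv.Perm (Fin 6)} (h : Au CartanMatrix.E₆ p) :
    (∀ a, p a = a) ∨ ∀ a, p a = fl a := by
  have h1 : ∀ a, p a = a ∨ p a = fl a := fun a => by
    have := h.vec (by rw [CartanMatrix.E₆_det]; decide) ![16, 22, 30, 42, 30, 16] (by decide) a
    generalize p a = b at this
    revert a b
    decide
  have h2 := h 0 2
  have h3 := h 5 4
  have h4 : p 0 ≠ p 5 := p.injective.ne (by decide)
  have b1 : p 1 = 1 := (h1 1).elim id id
  have b3 : p 3 = 3 := (h1 3).elim id id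
  have k : ∀ q : Fin 6 → Fin 6, p 0 = q 0 → q 1 = 1 → p 2 = q 2 → q 3 = 3 → p 4 = q 4 →
      p 5 = q 5 → ∀ a, p a = q a := fun q a0 a1 a2 a3 a4 a5 a => by
    fin_cases a
    exacts [a0, b1.trans a1.symm, a2, b3.trans a3.symm, a4, a5]
  rcases h1 0 with a0 | a0 <;> rcases h1 5 with a5 | a5 <;> rcases h1 2 with a2 | a2 <;>
    rcases h1 4 with a4 | a4 <;>
    first
    | exact .inl (k id a0 rfl a2 rfl a4 a5)
    | exact .inr (k fl a0 rfl a2 rfl a4 a5)
    | exact absurd (a0.trans a5.symm) h4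
    | exact absurd (a0 ▸ a2 ▸ h2) (by decide)
    | exact absurd (a5 ▸ a4 ▸ h3) (by decide)

section

variable {R : RS} {e : Fin R.r ≃ Fin 6} {π : Equiv.Perm (Fin R.r)}

theorem dg6 (he : Ty R CartanMatrix.E₆ e) (h : Dg R π) :
    π = 1 ∨ ∀ i, e (π i) = fl (e i) :=
  (au6 (Ty.au he h)).imp (fun a => Equiv.ext fun i => e.injective (by simpa using a (e i)))
    fun a i => by simpa using a (e i)

theorem dg_two (he : Ty R CartanMatrix.E₆ e) (h : Dg R π) : π (e.symm 1) = e.symm 1 := by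
  rcases dg6 he h with rfl | a
  · rfl
  · exact e.injective (by rw [a, e.apply_symm_apply]; rfl)

theorem dg_J0 (he : Ty R CartanMatrix.E₆ e) (h : Dg R π) (i : Fin R.r) :
    π i ∈ J0 e ↔ i ∈ J0 e := by
  refine not_congr ?_
  rw [← e.eq_symm_apply, ← e.eq_symm_apply]
  conv_lhs => rw [← dg_two he h]
  exact π.injective.eq_iff

theorem dg_lam (he : Ty R CartanMatrix.E₆ e) (h : Dg R π) (i : Fin R.r) :
    lam e (π i) = lam e i := by
  rcases dg6 he h with rfl | a
  · rfl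
  · unfold lam
    rw [a]
    generalize e i = x
    revert x
    decide

theorem so {D : Chev} {e : Fin D.R.r ≃ Fin 6} (he : Ty D.R CartanMatrix.E₆ e) :
    SO D.R (J0 e) := fun w hw j hj => by
  obtain ⟨s, h1, h2⟩ := P011UG.star (Chev.R_ok D) (GG_ok (k := ℚ)) hw
  exact h2 j ▸ (RS.In_α ((dg_J0 he h1 j).2 hj)).neg

variable (e) in
/-- the nodes of the subsystem -/
def io : Fin 5 ↪ Fin R.r :=
  ⟨fun i => e.symm (![0, 2, 3, 4, 5] i), e.symm.injective.comp (by decide)⟩

theorem e_io (i : Fin 5) : e (io e i) = ![0, 2, 3, 4, 5] i := e.apply_symm_apply _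

theorem io_range : Set.range (io e) = J0 e := by
  ext j
  refine ⟨?_, fun h => ?_⟩
  · rintro ⟨i, rfl⟩
    show e _ ≠ 1
    rw [e_io]
    revert i
    decide
  · obtain ⟨i, hi⟩ : ∃ i : Fin 5, ![0, 2, 3, 4, 5] i = e j := by
      have : e j ≠ 1 := h
      revert this
      generalize e j = x
      revert x
      decide
    exact ⟨i, e.injective ((e_io i).trans hi)⟩

theorem io_A (he : Ty R CartanMatrix.E₆ e) (i j : Fin 5) :
    R.A (io e i) (io e j) = CartanMatrix.A 5 i j := by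
  rw [he, e_io, e_io]
  fin_cases i <;> fin_cases j <;> rfl

end

section

variable {K : Type} [Field K]

theorem sl_mat {n : Type} [Fintype n] [DecidableEq n] {a b : n} (h : a ≠ b) {t s : K}
    (e : t * s = 1) : (1 + single a b t) * (1 + single b a (-s)) * (1 + single a b t) =
      1 - single a a 1 - single b b 1 + single a b t - single b a s := by
  have e' : s * t = 1 := (mul_comm _ _).trans e
  simp only [mul_add, add_mul, mul_one, one_mul, single_mul_single_same,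
    single_mul_single_of_ne _ _ _ _ h, single_mul_single_of_ne _ _ _ _ h.symm, mul_neg, neg_mul, e,
    e', ← single_neg, one_mul, single_zero, neg_zero]
  abel

/-- elements of the special linear group -/
def mkS {n : ℕ} (A : Matrix (Fin n) (Fin n) K) (h : A.det = 1) : SA K n :=
  ⟨GeneralLinearGroup.mkOfDetNeZero A (h ▸ one_ne_zero), Units.ext h⟩

theorem mkS_val {n : ℕ} (A : Matrix (Fin n) (Fin n) K) (h : A.det = 1) : (mkS A h).1.1 = A := rfl

theorem sa_det {n : ℕ} (x : SA K n) : x.1.1.det = 1 := congrArg Units.val x.2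

/-- the upper root elements -/
def xe (i : Fin 5) (u : K) : SA K 6 :=
  mkS (1 + single i.castSucc i.succ u) (det_transvection_of_ne _ _ i.castSucc_lt_succ.ne u)

/-- the lower root elements -/
def xf (i : Fin 5) (u : K) : SA K 6 :=
  mkS (1 + single i.succ i.castSucc u) (det_transvection_of_ne _ _ i.castSucc_lt_succ.ne' u)

/-- the diagonal entries of the elements of the torus -/
def ds (Z : Fin 6 → Kˣ) : Fin 6 → Kˣ :=
  ![Z 0, Z 2 / Z 0, Z 3 / Z 2, Z 4 / Z 3, Z 5 / Z 4, (Z 5)⁻¹]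

/-- the torus -/
def dT : (Fin 6 → Kˣ) →* SA K 6 := MonoidHom.mk'
  (fun Z => mkS (diagonal fun a => (ds Z a : K)) (by
    rw [det_diagonal, Fin.prod_univ_six]
    simp [ds]
    field_simp))
  fun Z Z' => Subtype.ext (Units.ext (by
    show diagonal _ = diagonal _ * diagonal _
    rw [diagonal_mul_diagonal]
    refine congrArg diagonal (funext fun a => ?_)
    fin_cases a <;> simp [ds, mul_div_mul_comm, mul_comm]))

theorem dT_val (Z : Fin 6 → Kˣ) : (dT Z).1.1 = diagonal fun a => (ds Z a : K) := rfl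

variable {D : Chev} (e : Fin D.R.r ≃ Fin 6)

/-- A pinned embedding of the special linear group. -/
structure Fr (φ : SA K 6 →* D.grp K) : Prop where
  inj : Function.Injective φ
  rng : φ.range = LJ (GG D K) (J0 e)
  xe : ∀ i u, φ (xe i u) = (GG D K).x (D.R.α (io e i)) u
  xf : ∀ i u, φ (xf i u) = (GG D K).x (-D.R.α (io e i)) u

variable {e} {φ : SA K 6 →* D.grp K}

theorem exists_fr (hD : SC D) (he : Ty D.R CartanMatrix.E₆ e) (K : Type) [Field K] :
    ∃ φ : SA K 6 →* D.grp K, Fr e φ ∧ ∀ (k : Type) [Field k] [Algebra k K]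
      [Algebra.IsAlgebraic k K] (T : Tw k (D.grp K)),
      (∀ σ, ∀ g ∈ LJ (GG D K) (J0 e), T.a σ g ∈ LJ (GG D K) (J0 e)) →
      ∃ T' : Tw k (SA K 6), ∀ σ x, T.a σ (φ x) = φ (T'.a σ x) := by
  obtain ⟨ψ, p1, p2, h⟩ := P011UF.levA hD K (by decide) (io e) (io_A he)
  have m : ∀ i u, (GG D K).x (D.R.α (io e i)) u ∈ LJ (GG D K) (Set.range (io e)) ∧
      (GG D K).x (-D.R.α (io e i)) u ∈ LJ (GG D K) (Set.range (io e)) := fun i u =>
    ⟨RG.x_mem ((Chev.R_ok D).simple _) (RS.In_α (Set.mem_range_self i)) _,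
      RG.x_mem ((Chev.R_ok D).neg_mem ((Chev.R_ok D).simple _)) (RS.In_α (Set.mem_range_self i)).neg _⟩
  refine ⟨(P011UF.up _).comp ψ.symm.toMonoidHom, ⟨(P011UF.up_inj _).comp ψ.symm.injective,
    le_antisymm ?_ ?_, fun i u => ?_, fun i u => ?_⟩, fun k _ _ _ T hS => ?_⟩
  · rintro _ ⟨x, rfl⟩
    exact io_range (e := e) ▸ P011UF.up_mem _ _
  · intro g hg
    rw [← io_range] at hg
    exact ⟨ψ ⟨g.1, g, hg, rfl⟩, congrArg (P011UF.up _) (ψ.symm_apply_apply _)⟩
  · rw [show xe i u = ψ ⟨_, _, (m i u).1, rfl⟩ from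
      Subtype.ext (Units.ext ((h i u _).1 rfl).symm)]
    exact congrArg (P011UF.up _) (ψ.symm_apply_apply _)
  · rw [show xf i u = ψ ⟨_, _, (m i u).2, rfl⟩ from
      Subtype.ext (Units.ext ((h i u _).2 rfl).symm)]
    exact congrArg (P011UF.up _) (ψ.symm_apply_apply _)
  · rw [← io_range] at hS
    exact ⟨P011UC.tr (P011UF.rst T _ hS) ψ p1 p2, fun σ x =>
      (congrArg (P011UF.up _) (ψ.symm_apply_apply ((P011UF.rst T _ hS).a σ (ψ.symm x)))).symm⟩

namespace Fr

variable (h : Fr e φ)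
include h

theorem mem (x : SA K 6) : φ x ∈ LJ (GG D K) (J0 e) := h.rng ▸ ⟨x, rfl⟩

theorem surj {g : D.grp K} (hg : g ∈ LJ (GG D K) (J0 e)) : ∃ x, φ x = g := h.rng.ge hg

theorem ext {H : Type} [Group H] {f f' : SA K 6 →* H} (h1 : ∀ i u, f (P011UF2.xe i u) =
    f' (P011UF2.xe i u)) (h2 : ∀ i u, f (P011UF2.xf i u) = f' (P011UF2.xf i u)) : f = f' := by
  refine MonoidHom.ext fun x => ?_
  have := h.mem x
  rw [LJ_eq (Chev.R_ok D) GG_ok, ← io_range] at this
  obtain ⟨y, hy, e'⟩ : φ x ∈ (f.eqLocus f').map φ := (Subgroup.closure_le _).2 (by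
    rintro _ ⟨_, ⟨i, rfl⟩, u, rfl | rfl⟩
    exacts [⟨_, h1 i u, h.xe i u⟩, ⟨_, h2 i u, h.xf i u⟩]) this
  exact h.inj e' ▸ hy

theorem h_eq (i : Fin 5) (t : Kˣ) :
    φ (dT (Pi.mulSingle (![0, 2, 3, 4, 5] i) t)) = (GG D K).h (io e i) t := by
  have e1 : P011UF2.xe i (t : K) * P011UF2.xf i (-((t⁻¹ : Kˣ) : K)) * P011UF2.xe i (t : K) =
      dT (Pi.mulSingle (![0, 2, 3, 4, 5] i) t) *
        (P011UF2.xe i 1 * P011UF2.xf i (-1) * P011UF2.xe i 1) := Subtype.ext (Units.ext (by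
    show (1 + single _ _ _) * (1 + single _ _ _) * (1 + single _ _ _) =
      diagonal _ * ((1 + single _ _ _) * (1 + single _ _ _) * (1 + single _ _ _))
    rw [sl_mat i.castSucc_lt_succ.ne t.mul_inv, sl_mat i.castSucc_lt_succ.ne (one_mul 1)]
    ext a b
    rw [diagonal_mul]
    fin_cases i <;> fin_cases a <;> fin_cases b <;> simp [ds, single_apply]))
  have e2 := congrArg φ e1
  simp only [map_mul, h.xe, h.xf, GG_ok.sl] at e2
  exact (mul_right_cancel e2).symm

theorem hT_eq (s : Fin D.R.r → Kˣ) (hs : s (e.symm 1) = 1) :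
    φ (dT fun a => s (e.symm a)) = GG_ok.hT s := by
  have e1 : s = ∏ i, Pi.mulSingle (io e i) (s (io e i)) := funext fun j => by
    obtain ⟨a, rfl⟩ := e.symm.surjective j
    fin_cases a <;> simp [Fin.prod_univ_five, io, Pi.mulSingle_apply, hs]
  have e2 : (fun a => s (e.symm a)) =
      ∏ i, Pi.mulSingle (![0, 2, 3, 4, 5] i) (s (io e i)) := funext fun a => by
    fin_cases a <;> simp [Fin.prod_univ_five, io, Pi.mulSingle_apply, hs]
  rw [e2]
  conv_rhs => rw [e1]
  simp only [Fin.prod_univ_five, map_mul, h.h_eq, GG_ok.hT_single]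

theorem lam_eq (x : SA K 6) (t : Kˣ) (hx : x.1.1 = diagonal ![(t : K), t, t, t⁻¹, t⁻¹, t⁻¹]) :
    φ x = co GG_ok (lam e) t := by
  rw [co_eq, ← h.hT_eq _ (by simp [lam])]
  refine congrArg φ (Subtype.ext (Units.ext (hx.trans (congrArg diagonal (funext fun a => ?_)))))
  fin_cases a <;> simp [ds, lam, zpow_ofNat] <;> field_simp

end Fr

end

end Vale.Agent.P011UF2
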