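import Vale.Agent.P011UF2.Kit
import Vale.Agent.P011UF2C.Blk

/-!
Monomial matrices of size six.
-/

set_option autoImplicit false
set_option linter.all false

namespace Vale.Agent.P011UF2

open Matrix Vale.Agent.P011L Vale.Agent.P011LE Vale.Agent.P011UQ Vale.Agent.P011UF2C

variable {k K : Type} [Field k] [Field K] [Algebra k K] {o : (K ≃ₐ[k] K) →* ℤˣ}
  {σ τ : K ≃ₐ[k] K}

/-- diagonal matrices -/
def dG : (Fin 6 → Kˣ) →* GL (Fin 6) K := MonoidHom.mk'
  (fun d => ⟨diagonal fun a => (d a : K), diagonal fun a => ((d a)⁻¹ : Kˣ),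
    by simp [diagonal_mul_diagonal], by simp [diagonal_mul_diagonal]⟩)
  fun d d' => Units.ext (by simp [diagonal_mul_diagonal])

theorem dG_val (d : Fin 6 → Kˣ) : (dG d).1 = diagonal fun a => (d a : K) := rfl

theorem dT_eq (Z : Fin 6 → Kˣ) : (dT Z).1 = dG (ds Z) := Units.ext rfl

/-- the antidiagonal matrix -/
def w0 : Matrix (Fin 6) (Fin 6) K :=
  !![0, 0, 0, 0, 0, -1; 0, 0, 0, 0, 1, 0; 0, 0, 0, -1, 0, 0; 0, 0, 1, 0, 0, 0; 0, -1, 0, 0, 0, 0;
    1, 0, 0, 0, 0, 0]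

theorem w0_eq : (w0 : Matrix (Fin 6) (Fin 6) K) =
    of fun a b => if a = b.rev then (-1) ^ b.1 else 0 := by
  ext a b
  fin_cases a <;> fin_cases b <;> simp [w0] <;> norm_num

theorem w0_mul (A : Matrix (Fin 6) (Fin 6) K) (a b : Fin 6) :
    (w0 * A : Matrix _ _ K) a b = -((-1) ^ a.1 * A a.rev b) := by
  fin_cases a <;> simp [w0, mul_apply, Fin.sum_univ_six] <;> norm_num <;> rfl

theorem mul_w0 (A : Matrix (Fin 6) (Fin 6) K) (a b : Fin 6) :
    (A * w0 : Matrix _ _ K) a b = (-1) ^ b.1 * A a b.rev := by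
  fin_cases b <;> simp [w0, mul_apply, Fin.sum_univ_six] <;> norm_num <;> rfl

theorem w0_sq : (w0 * w0 : Matrix (Fin 6) (Fin 6) K) = -1 := by
  ext a b
  rw [w0_mul]
  fin_cases a <;> fin_cases b <;> simp [w0] <;> norm_num

/-- the antidiagonal matrix -/
def ww : GL (Fin 6) K := ⟨w0, -w0, by rw [mul_neg, w0_sq, neg_neg], by rw [neg_mul, w0_sq, neg_neg]⟩

theorem st_ww : st o σ (ww : GL (Fin 6) K) = ww := Units.ext (by
  by_cases h : o σ = 1
  · rw [st_in h]
    ext a b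
    fin_cases a <;> fin_cases b <;> simp [ww, w0]
  · rw [st_out h]
    change ((-w0 : Matrix _ _ K).map σ)ᵀ = w0
    ext a b
    fin_cases a <;> fin_cases b <;> simp [w0])

theorem det_w0 : (w0 : Matrix (Fin 6) (Fin 6) K).det = 1 := by
  have e : (w0 : Matrix (Fin 6) (Fin 6) K) =
      (diagonal ![1, -1, 1, -1, 1, -1]).submatrix Fin.revPerm id := by
    ext a b
    fin_cases a <;> fin_cases b <;> simp [w0, diagonal_apply] <;> decide
  rw [e, det_permute, det_diagonal, Fin.prod_univ_six,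
    show Equiv.Perm.sign (Fin.revPerm : Equiv.Perm (Fin 6)) = -1 by decide]
  simp

theorem ww_dG (d : Fin 6 → Kˣ) : ww * dG d = dG (fun a => d a.rev) * ww := Units.ext (by
  ext a b
  change (w0 * diagonal _ : Matrix _ _ K) a b = (diagonal _ * w0 : Matrix _ _ K) a b
  rw [mul_diagonal, diagonal_mul, w0_eq, of_apply]
  split_ifs with h
  · simp only [h, Fin.rev_rev, mul_comm]
  · simp)

theorem st_dG (d : Fin 6 → Kˣ) :
    st o σ (dG d) = dG fun a => if o σ = 1 then um σ (d a) else (um σ (d a))⁻¹ := Units.ext (by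
  by_cases h : o σ = 1
  · rw [st_in h, dG_val, dG_val, diagonal_map (map_zero σ)]
    simp [h]
  · rw [st_out h, ← map_inv, dG_val, dG_val, diagonal_map (map_zero σ), diagonal_transpose]
    simp [h])

theorem dG_x (d : Fin 6 → Kˣ) (a b : Fin 6) (u : K) :
    (dG d).1 * (1 + single a b u) = (1 + single a b ((d a / d b : Kˣ) * u)) * (dG d).1 := by
  ext i j
  rw [dG_val, mul_diagonal, diagonal_mul, Matrix.add_apply, Matrix.add_apply, single_apply,
    single_apply, one_apply]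
  by_cases h : a = i ∧ b = j
  · obtain ⟨rfl, rfl⟩ := h
    by_cases h' : a = b
    · subst h'
      simp [mul_comm]
    · simp [h']
      field_simp
  · rw [if_neg h, if_neg h]
    by_cases h' : i = j <;> simp [h']

theorem w0_x (i : Fin 5) (u : K) :
    w0 * (1 + single i.succ i.castSucc (-u)) = (1 + single i.rev.castSucc i.rev.succ u) * w0 ∧
    w0 * (1 + single i.castSucc i.succ (-u)) = (1 + single i.rev.succ i.rev.castSucc u) * w0 := by
  constructor <;> rw [mul_add, add_mul, mul_one, one_mul] <;> congr 1 <;> ext a b <;>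
    rw [w0_mul, mul_w0, single_apply, single_apply] <;>
    fin_cases i <;> fin_cases a <;> fin_cases b <;> simp <;> norm_num

theorem xe_inv (i : Fin 5) (u : K) : (xe i u).1⁻¹.1 = 1 + single i.castSucc i.succ (-u) :=
  Units.inv_eq_of_mul_eq_one_right (by
    have := transvection_mul_transvection_same _ _ i.castSucc_lt_succ.ne u (-u)
    rwa [add_neg_cancel, transvection_zero] at this)

theorem xf_inv (i : Fin 5) (u : K) : (xf i u).1⁻¹.1 = 1 + single i.succ i.castSucc (-u) :=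
  Units.inv_eq_of_mul_eq_one_right (by
    have := transvection_mul_transvection_same _ _ i.castSucc_lt_succ.ne' u (-u)
    rwa [add_neg_cancel, transvection_zero] at this)

theorem map_x (σ : K ≃ₐ[k] K) (a b : Fin 6) (u : K) :
    (1 + single a b u : Matrix _ _ K).map σ = 1 + single a b (σ u) := by
  rw [Matrix.map_add _ (map_add σ), P011LD.map_one', map_single]

/-- the diagonal automorphisms -/
def gam (C : Fin 6 → Kˣ) : Fin 6 → Kˣ :=
  ![1, (C 0)⁻¹, (C 0 * C 2)⁻¹, (C 0 * C 2 * C 3)⁻¹, (C 0 * C 2 * C 3 * C 4)⁻¹,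
    (C 0 * C 2 * C 3 * C 4 * C 5)⁻¹]

/-- the factor on the last node -/
def kap (C : Fin 6 → Kˣ) : K := C 1 * (C 0 ^ 3 * C 2 ^ 3 * C 3 ^ 3 * C 4 ^ 2 * C 5)

theorem gam_div (C : Fin 6 → Kˣ) (i : Fin 5) :
    gam C i.castSucc / gam C i.succ = C (![0, 2, 3, 4, 5] i) := by
  fin_cases i <;> simp [gam]

variable (o σ) in
/-- the monomial part of the descent data -/
def mon (C : Fin 6 → Kˣ) : GL (Fin 6) K := dG (gam C) * if o σ = 1 then 1 else ww

theorem mon_x (C : Fin 6 → Kˣ) (i : Fin 5) (u : K) :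
    mon o σ C * st o σ (xe i u).1 = (xe (if o σ = 1 then i else i.rev)
      (C (![0, 2, 3, 4, 5] (if o σ = 1 then i else i.rev)) * σ u)).1 * mon o σ C ∧
    mon o σ C * st o σ (xf i u).1 = (xf (if o σ = 1 then i else i.rev)
      ((C (![0, 2, 3, 4, 5] (if o σ = 1 then i else i.rev)))⁻¹ * σ u)).1 * mon o σ C := by
  unfold mon
  by_cases h : o σ = 1
  · simp only [if_pos h, mul_one]
    refine ⟨Units.ext ?_, Units.ext ?_⟩ <;> rw [Units.val_mul, st_in h]
    · exact (congrArg _ (map_x σ _ _ u)).trans (gam_div C i ▸ dG_x _ _ _ _)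
    · refine (congrArg _ (map_x σ _ _ u)).trans ((dG_x _ _ _ _).trans ?_)
      rw [← inv_div, gam_div, Units.val_inv_eq_inv_val]
      rfl
  · simp only [if_neg h]
    refine ⟨Units.ext ?_, Units.ext ?_⟩ <;>
      rw [Units.val_mul, Units.val_mul, st_out h, Matrix.mul_assoc]
    · rw [xe_inv, map_x, transpose_add, transpose_one, transpose_single, map_neg,
        show ww.1 * _ = _ from (w0_x i (σ u)).1, ← Matrix.mul_assoc, dG_x, gam_div,
        Matrix.mul_assoc]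
      rfl
    · rw [xf_inv, map_x, transpose_add, transpose_one, transpose_single, map_neg,
        show ww.1 * _ = _ from (w0_x i (σ u)).2, ← Matrix.mul_assoc, dG_x, ← inv_div, gam_div,
        Matrix.mul_assoc, Units.val_inv_eq_inv_val]
      rfl

theorem mon_det (C : Fin 6 → Kˣ) : (mon o σ C).1.det =
    ((C 0 ^ 5 * C 2 ^ 4 * C 3 ^ 3 * C 4 ^ 2 * C 5)⁻¹ : Kˣ) := by
  have : (if o σ = 1 then 1 else ww : GL (Fin 6) K).1.det = 1 := by
    split_ifs
    exacts [det_one, det_w0]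
  rw [mon, Units.val_mul, det_mul, this, dG_val, det_diagonal, Fin.prod_univ_six]
  simp [gam]
  field_simp

theorem dG_const (c : Kˣ) (d : Fin 6 → Kˣ) (X : GL (Fin 6) K) :
    (dG (fun a => c * d a) * X).1 = (c : K) • (dG d * X).1 := by
  rw [Units.val_mul, Units.val_mul, ← Matrix.smul_mul, dG_val, dG_val, ← diagonal_smul]
  rfl

theorem rel {Z C₁ C₂ C₃ : Fin 6 → Kˣ} (hZ : Z 1 = 1)
    (h : ∀ a, C₃ a = (∏ b, Z b ^ CartanMatrix.E₆ a b) * (C₁ a * C₂ a)) :
    (∀ a, ds Z a * (gam C₁ a * gam C₂ a) = Z 0 * gam C₃ a) ∧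
      (Z 0 : K) ^ 3 * kap C₁ * kap C₂ = kap C₃ := by
  obtain rfl : C₃ = _ := funext h
  refine ⟨fun a => Units.ext ?_, ?_⟩
  · fin_cases a <;> simp [ds, gam, Fin.prod_univ_six, CartanMatrix.E₆, hZ, zpow_ofNat] <;> field_simp
  · simp [kap, Fin.prod_univ_six, CartanMatrix.E₆, hZ, zpow_ofNat]
    field_simp

theorem gam_fl (C : Fin 6 → Kˣ) (a : Fin 6) :
    (gam C a.rev)⁻¹ = C 0 * C 2 * C 3 * C 4 * C 5 * gam (fun b => C (fl b)) a := Units.ext (by
  fin_cases a <;> simp [gam, fl] <;> field_simp)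

theorem mon_mul {Z C₁ C₂ C₃ : Fin 6 → Kˣ} (hZ : Z 1 = 1)
    (h : ∀ a, C₃ a = (∏ b, Z b ^ CartanMatrix.E₆ a b) *
      (C₁ a * um σ (C₂ (if o σ = 1 then a else fl a)))) :
    ∃ z : K, ((dT Z).1 * (mon o σ C₁ * st o σ (mon o τ C₂))).1 = z • (mon o (σ * τ) C₃).1 ∧
      z ^ 3 * kap C₁ * σ (kap C₂ * if o σ = 1 then 1 else (mon o τ C₂).1.det) =
        (if o σ = 1 ∨ o τ = 1 then 1 else -1) * kap C₃ ∧ (o σ = 1 → o τ = 1 → z = Z 0) := by
  obtain ⟨r1, r2⟩ := rel hZ h
  have g : ∀ a, um σ (gam C₂ a) = gam (fun b => um σ (C₂ b)) a := fun a => by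
    fin_cases a <;> simp [gam]
  have w : st o σ (if o τ = 1 then 1 else ww : GL (Fin 6) K) = if o τ = 1 then 1 else ww := by
    split_ifs
    exacts [map_one _, st_ww]
  rw [mon_det, mon, mon, mon, map_mul, w, st_dG, dT_eq]
  by_cases a : o σ = 1
  · simp only [if_pos a, mul_one, true_or, if_true, one_mul, map_mul o, a] at r1 r2 ⊢
    refine ⟨Z 0, ?_, ?_, fun _ _ => rfl⟩
    · rw [← mul_assoc, ← mul_assoc, ← map_mul, ← map_mul, ← dG_const]
      congr 3
      exact funext fun b => by rw [← r1, ← g, Pi.mul_apply, Pi.mul_apply, mul_assoc]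
    · rw [← r2]
      simp [kap]
  · simp only [if_neg a] at r1 r2 ⊢
    have e1 : dG (ds Z) * (dG (gam C₁) * ww * (dG (fun b => (um σ (gam C₂ b))⁻¹) *
        if o τ = 1 then 1 else ww)) = dG (fun b => (Z 0 * um σ (C₂ 0 * C₂ 2 * C₂ 3 * C₂ 4 * C₂ 5)) *
          gam C₃ b) * (ww * if o τ = 1 then 1 else ww) := by
      rw [mul_assoc (dG _) ww, ← mul_assoc ww, ww_dG, mul_assoc _ ww, ← mul_assoc, ← mul_assoc,
        ← map_mul, ← map_mul]
      congr 2
      funext b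
      rw [Pi.mul_apply, Pi.mul_apply, g, gam_fl, mul_right_comm (Z 0), ← r1]
      simp only [map_mul]
      ac_rfl
    have e2 : ((Z 0 * um σ (C₂ 0 * C₂ 2 * C₂ 3 * C₂ 4 * C₂ 5) : Kˣ) : K) ^ 3 * kap C₁ *
        σ (kap C₂ * ((C₂ 0 ^ 5 * C₂ 2 ^ 4 * C₂ 3 ^ 3 * C₂ 4 ^ 2 * C₂ 5)⁻¹ : Kˣ)) = kap C₃ := by
      rw [← r2]
      simp [kap, fl]
      field_simp
    rw [e1, dG_const]
    by_cases b : o τ = 1
    · simp only [if_pos b, if_neg (o_oi a b), mul_one, b, or_true, if_true, one_mul]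
      exact ⟨_, rfl, e2, fun c => absurd c a⟩
    · simp only [if_neg b, if_pos (o_oo a b), mul_one, a, b, or_self, if_false]
      refine ⟨-((Z 0 * um σ (C₂ 0 * C₂ 2 * C₂ 3 * C₂ 4 * C₂ 5) : Kˣ) : K), ?_, by rw [← e2]; ring,
        fun c => c.elim⟩
      rw [Units.val_mul (dG _), show (ww * ww : GL (Fin 6) K).1 = -1 from w0_sq, mul_neg, mul_one,
        smul_neg, neg_smul]

end Vale.Agent.P011UF2
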