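import Vale.Agent.P011UF2.Dct
import Vale.Agent.P011UF2a.Main
import Vale.Agent.P011UF2B.Main
import Vale.Agent.P011UF2C.Dsc
import Vale.Agent.P011UF2d.Lff
import Vale.Agent.P011UQ.Lnf
import Vale.Agent.P011UQ74.Ari
import Vale.Agent.P011UF2h.Main
import Vale.Agent.P011UF2P.Main
import Vale.Agent.P011UF2j.Main

/-!
The steps which are proved without hypotheses.
-/

namespace Vale.Agent.P011UF2

theorem ari0 : ARI :=
  P011UQ74.ari P011UF2a.idx (P011UF2B.lag P011UF2a.rk)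
    (P011UF2B.sym P011UF2a.idx P011UF2a.rk (P011UF2B.lag P011UF2a.rk)) P011UF2C.blk P011UF2C.dsc
    P011UF2d.lff P011UQ.lnf

theorem dct0 : DCT := dct P011UF2h.tlj P011UF2h.lft

theorem p00 : P0 := P011UF2P.p0 P011UF2h.lft

end Vale.Agent.P011UF2
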